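import Vale.Agent.P241.St.Defs
import Vale.Agent.P251.St.ToLC
import Vale.Agent.P251.G.Cofib
import Vale.Agent.P251.G.FinSum

/-!
# P241: fixed points of finite `G`-cell spaces

* `fι X V : X^V ⟶ X` : the inclusion of the fixed points (in `LC`), `mem_range_fι`;
* `fixHom f hf V : X^V ⟶ Y^V` : fixed points of an equivariant map;
* `hequiv_fix` : fixed points of a `G`-homotopy equivalence;
* `GCofib.injective`, `GCofib.exists_isRetr` : equivariant retraction of the cylinder;
* `GCofib.fix` : fixed points of a `G`-cofibration are a cofibration;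
* `fc_fix` : the fixed points of a finite `G`-cell space are a finite cell space.
-/

open CategoryTheory MonoidalCategory OnePoint Topology

namespace Vale.Agent.P241.H486

open Vale.Agent.P251 Vale.Agent.P251.St Vale.Agent.P251.G Vale.Agent.P251.G.LC
open Vale.Agent.P241.St

variable {G : Type} [Group G]

/-! ### the action on `X⁺` -/

section action

variable (X : GSpace G)

@[simp] theorem smul_infty (g : G) : X.smul g ∞ = ∞ := rfl

@[simp] theorem smul_coe (g : G) (x : X.carrier) :
    X.smul g (x : OnePoint X.carrier) = ((g • x : X.carrier) : OnePoint X.carrier) := rfl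

theorem smul_mul (g h : G) (x : OnePoint X.carrier) : X.smul (g * h) x = X.smul g (X.smul h x) := by
  induction x using OnePoint.rec with
  | infty => rfl
  | coe x => rw [smul_coe, smul_coe, smul_coe, mul_smul]

@[simp] theorem smul_one' (x : OnePoint X.carrier) : X.smul 1 x = x := by
  induction x using OnePoint.rec with
  | infty => rfl
  | coe x => rw [smul_coe, one_smul]

theorem smul_inv_smul' (g : G) (x : OnePoint X.carrier) : X.smul g (X.smul g⁻¹ x) = x := by
  rw [← smul_mul, mul_inv_cancel, smul_one']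

theorem inv_smul_smul' (g : G) (x : OnePoint X.carrier) : X.smul g⁻¹ (X.smul g x) = x := by
  rw [← smul_mul, inv_mul_cancel, smul_one']

theorem smul_injective' (g : G) : Function.Injective (X.smul g) := fun x y h => by
  rw [← inv_smul_smul' X g x, h, inv_smul_smul']

end action

/-! ### fixed points -/

section fixed

variable (X Y Z : GSpace G) (V : Subgroup G)

/-- the inclusion `X^V ⟶ X` -/
def fι : toLC (X.fix V) ⟶ toLC X.und :=
  ofClosed (X := toLC (X.fix V)) (Y := toLC X.und)
    (Subtype.val : MulAction.fixedPoints V X.carrier → X.carrier)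
    (X.isClosed_fixedPoints V).isClosedEmbedding_subtypeVal

theorem app_fι_coe (x : MulAction.fixedPoints V X.carrier) :
    app (fι X V) (OnePoint.some (X := MulAction.fixedPoints V X.carrier) x) =
      ((x.1 : X.carrier) : OnePoint X.carrier) := rfl

theorem injective_fι : Function.Injective (app (fι X V)) := by
  intro a b h
  induction a using OnePoint.rec with
  | infty =>
    induction b using OnePoint.rec with
    | infty => rfl
    | coe b => exact absurd ((app_infty (fι X V)).symm.trans h) (OnePoint.infty_ne_coe _)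
  | coe a =>
    induction b using OnePoint.rec with
    | infty => exact absurd (h.trans (app_infty (fι X V))) (OnePoint.coe_ne_infty _)
    | coe b => exact congrArg _ (Subtype.ext (OnePoint.coe_injective h))

theorem mem_range_fι (x : OnePoint X.carrier) :
    x ∈ Set.range (app (fι X V)) ↔ ∀ v ∈ V, X.smul v x = x := by
  constructor
  · rintro ⟨u, rfl⟩ v hv
    induction u using OnePoint.rec with
    | infty => rfl
    | coe u =>
      obtain ⟨u, hu⟩ := u
      exact congrArg (OnePoint.some (X := X.carrier)) (hu ⟨v, hv⟩)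
  · intro h
    induction x using OnePoint.rec with
    | infty => exact ⟨∞, app_infty _⟩
    | coe x =>
      exact ⟨OnePoint.some (X := MulAction.fixedPoints V X.carrier)
        ⟨x, fun v => OnePoint.coe_injective (h v.1 v.2)⟩, rfl⟩

theorem smul_fι (x : (X.fix V).Pt) {v : G} (hv : v ∈ V) :
    X.smul v (app (fι X V) x) = app (fι X V) x :=
  (mem_range_fι X V _).1 ⟨x, rfl⟩ v hv

variable {X Y Z}

/-- fixed points of an equivariant map -/
noncomputable def fixHom (f : toLC X.und ⟶ toLC Y.und) (hf : IsGMap (X := X) (Y := Y) (app f)) :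
    toLC (X.fix V) ⟶ toLC (Y.fix V) :=
  factor (fι Y V) (injective_fι Y V) (fι X V ≫ f) fun x => by
    rw [mem_range_fι]
    intro v hv
    rw [app_comp]
    exact (hf v _).symm.trans (congrArg (app f) (smul_fι X V x hv))

@[reassoc (attr := simp)]
theorem fixHom_fι (f : toLC X.und ⟶ toLC Y.und) (hf : IsGMap (X := X) (Y := Y) (app f)) :
    fixHom V f hf ≫ fι Y V = fι X V ≫ f := factor_comp _ _ _ _

theorem app_fixHom (f : toLC X.und ⟶ toLC Y.und) (hf : IsGMap (X := X) (Y := Y) (app f))
    (x : (X.fix V).Pt) :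
    app (fι Y V) (app (fixHom V f hf) x) = app f (app (fι X V) x) :=
  congrArg (fun k : toLC (X.fix V) ⟶ toLC Y.und => app k x) (fixHom_fι V f hf)

theorem mono_fι : Mono (fι X V) := mono_of_injective (injective_fι X V)

/-- fixed points of equivariantly homotopic maps -/
theorem homotopic_fix {f g : toLC X.und ⟶ toLC Y.und} {f' g' : toLC (X.fix V) ⟶ toLC (Y.fix V)}
    (hf : f' ≫ fι Y V = fι X V ≫ f) (hg : g' ≫ fι Y V = fι X V ≫ g)
    (h : GHomotopic (X := X) (Y := Y) (app f) (app g)) : LC.Homotopic f' g' := by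
  obtain ⟨H, ⟨hH, hG⟩, h0, h1⟩ := h
  have hm := mono_fι (X := Y) V
  let K : toLC X.und ⊗ II ⟶ toLC Y.und := htpyMap H hH
  have hK : ∀ x, app (fι X V ▷ II ≫ K) x ∈ Set.range (app (fι Y V)) := by
    intro p
    obtain ⟨x, t, rfl⟩ := smash_coe_surjective (X := (X.fix V).carrier) (Y := unitInterval) p
    rw [mem_range_fι]
    intro v hv
    have h2 : app (fι X V ▷ II ≫ K) (LC.smash x (t : OnePoint unitInterval)) =
        H t (app (fι X V) x) := by
      rw [app_comp, app_whiskerRight_cyl]
      exact app_htpyMap H hH _ t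
    rw [h2]
    exact (hG t v _).symm.trans (congrArg (H t) (smul_fι X V x hv))
  refine ⟨factor (fι Y V) (injective_fι Y V) (fι X V ▷ II ≫ K) hK, ?_, ?_⟩
  · rw [← cancel_mono (fι Y V), Category.assoc, factor_comp, hf, incl_naturality_assoc]
    congr 1
    apply app_ext
    intro x
    rw [app_comp, app_incl]
    exact (app_htpyMap H hH x 0).trans (congrFun h0 x)
  · rw [← cancel_mono (fι Y V), Category.assoc, factor_comp, hg, incl_naturality_assoc]
    congr 1
    apply app_ext
    intro x
    rw [app_comp, app_incl]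
    exact (app_htpyMap H hH x 1).trans (congrFun h1 x)

theorem hequiv_fix (h : GHEquiv X Y) : St.HEquiv (X.fix V) (Y.fix V) := by
  obtain ⟨f, g, hf, hg, h1, h2⟩ := h
  have hf : IsGMap (X := X) (Y := Y) (app (toHom f)) := hf
  have hg : IsGMap (X := Y) (Y := X) (app (toHom g)) := hg
  refine (hequiv_iff _ _).mpr ⟨fixHom V (toHom f) hf, fixHom V (toHom g) hg, ?_, ?_⟩
  · refine homotopic_fix V (f := toHom f ≫ toHom g) (g := 𝟙 _) ?_ ?_ h1
    · rw [Category.assoc, fixHom_fι, fixHom_fι_assoc]
    · rw [Category.comp_id, Category.id_comp]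
  · refine homotopic_fix V (f := toHom g ≫ toHom f) (g := 𝟙 _) ?_ ?_ h2
    · rw [Category.assoc, fixHom_fι, fixHom_fι_assoc]
    · rw [Category.comp_id, Category.id_comp]

end fixed

/-! ### cofibrations -/

section cofib

variable {A B : GSpace G} (V : Subgroup G)

/-- a closed invariant subspace -/
def gsub (X : GSpace G) (S : Set X.carrier) (hS : IsClosed S)
    (hG : ∀ (g : G) (x : X.carrier), x ∈ S → g • x ∈ S) : GSpace G :=
  haveI : LocallyCompactSpace S := hS.isClosedEmbedding_subtypeVal.locallyCompactSpace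
  letI : MulAction G S :=
    { smul := fun g x => ⟨g • x.1, hG g x.1 x.2⟩
      one_smul := fun x => Subtype.ext (one_smul G x.1)
      mul_smul := fun g h x => Subtype.ext (mul_smul g h x.1) }
  haveI : ContinuousConstSMul G S :=
    ⟨fun g => ((continuous_const_smul g).comp continuous_subtype_val).subtype_mk _⟩
  ⟨S⟩

/-- the product with a space with trivial action -/
abbrev cylG (X : GSpace G) (I : Space) : GSpace G := X.prod (GSpace.triv G I)

theorem smul_smash (X : GSpace G) (I : Space) (g : G) (x : X.und.Pt) (t : I.Pt) :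
    (cylG X I).smul g (LC.smash x t) = LC.smash (X.smul g x) t := by
  induction x using OnePoint.rec with
  | infty => rfl
  | coe x =>
    induction t using OnePoint.rec with
    | infty => rfl
    | coe t => rfl

/-- A `G`-cofibration is injective. -/
theorem injective_of_gcofib {i : Map A.und B.und} (hi : GCofib (A := A) (B := B) i) :
    Function.Injective i.toFun := by
  let c : toLC A.und ⊗ II ⟶ toLC A.und ⊗ LC.HH := toLC A.und ◁ coneMap'
  obtain ⟨K, -, -, hK⟩ := hi (cylG A Hh) ⟨fun _ => ∞, continuous_const, rfl⟩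
    (fun t a => app c (LC.smash a (t : OnePoint unitInterval))) (fun g x => rfl)
    ⟨isHtpy_of_hom (X := A.und) (Y := (cylG A Hh).und) c, by
      intro t g a
      change app c (LC.smash (A.smul g a) (t : OnePoint unitInterval)) =
        (cylG A Hh).smul g (app c (LC.smash a (t : OnePoint unitInterval)))
      have h1 : ∀ a : A.und.Pt, app c (LC.smash a (t : OnePoint unitInterval)) =
          LC.smash a (app coneMap' (t : OnePoint unitInterval)) := fun a =>
        app_whiskerLeft_smash (toLC A.und) coneMap' a _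
      rw [h1, h1]
      exact (smul_smash A Hh g a _).symm⟩
    (by
      funext a
      change app c (LC.smash a ((0 : unitInterval) : OnePoint unitInterval)) = ∞
      refine (app_whiskerLeft_smash (toLC A.und) coneMap' a _).trans ?_
      exact (congrArg (LC.smash a) app_coneMap_zero).trans (smash_infty_right a))
  intro a a' h
  have key : ∀ a : A.und.Pt, K 1 (i.toFun a) = LC.smash a ((0 : NNReal) : OnePoint NNReal) := by
    intro a
    have h1 := congrFun (hK 1) a
    refine h1.trans ?_
    exact (app_whiskerLeft_smash (toLC A.und) coneMap' a _).trans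
      (congrArg (LC.smash a) app_coneMap_one)
  have h2 := (key a).symm.trans ((congrArg _ h).trans (key a'))
  exact (smash_coe_eq_iff.mp h2).1

/-- The equivariant retraction of the cylinder onto the mapping cylinder. -/
theorem exists_isRetr_of_gcofib {i : Map A.und B.und} (hG : IsGMap (X := A) (Y := B) i.toFun)
    (hi : GCofib (A := A) (B := B) i) :
    ∃ r : toLC B.und ⊗ II ⟶ toLC B.und ⊗ II, IsRetr (Set.range i.toFun) r ∧
      ∀ (g : G) (b : B.und.Pt) (t : unitInterval),
        app r (LC.smash (B.smul g b) (t : OnePoint unitInterval)) =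
          (cylG B ⟨unitInterval⟩).smul g (app r (LC.smash b (t : OnePoint unitInterval))) := by
  have hS : IsClosed {p : B.carrier × unitInterval | p.2 = 0 ∨
      (p.1 : OnePoint B.carrier) ∈ Set.range i.toFun} :=
    isClosed_cylSet' (B := toLC B.und) (isClosed_range_app (toHom i))
  have hrg : ∀ (g : G) (b : B.und.Pt), b ∈ Set.range i.toFun → B.smul g b ∈ Set.range i.toFun := by
    rintro g _ ⟨a, rfl⟩
    exact ⟨A.smul g a, hG g a⟩
  let Z : GSpace G := gsub (cylG B ⟨unitInterval⟩)
    {p : B.carrier × unitInterval | p.2 = 0 ∨ (p.1 : OnePoint B.carrier) ∈ Set.range i.toFun} hS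
    (by
      rintro g ⟨b, t⟩ (h | h)
      · exact Or.inl h
      · exact Or.inr (hrg g b h))
  let m : toLC Z.und ⟶ toLC B.und ⊗ II := subι (Y := toLC B.und ⊗ II) hS
  have hm : Function.Injective (app m) := injective_subι (Y := toLC B.und ⊗ II) hS
  have hmG : ∀ (g : G) (z : Z.und.Pt), app m (Z.smul g z) =
      (cylG B ⟨unitInterval⟩).smul g (app m z) := by
    intro g z
    induction z using OnePoint.rec with
    | infty => rfl
    | coe z => rfl
  have hmem : ∀ (b : B.und.Pt) (t : unitInterval), (t = 0 ∨ b ∈ Set.range i.toFun) →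
      LC.smash b (t : OnePoint unitInterval) ∈ Set.range (app m) := by
    intro b t h
    refine (mem_range_subι (Y := toLC B.und ⊗ II) hS _).mpr ?_
    rintro ⟨b', t'⟩ hz
    have h1 : LC.smash b (t : OnePoint unitInterval) =
      LC.smash (b' : OnePoint B.carrier) (t' : OnePoint unitInterval) := hz
    obtain ⟨rfl, h2⟩ := smash_coe_eq_iff.mp h1
    have h3 : t = t' := h2.resolve_left (OnePoint.coe_ne_infty _)
    subst h3
    exact h
  have hf0 : ∀ b, app (incl 0 (toLC B.und)) b ∈ Set.range (app m) := by
    intro b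
    rw [app_incl]
    exact hmem b 0 (Or.inl rfl)
  have hH0 : ∀ p, app (toHom i ▷ II) p ∈ Set.range (app m) := by
    intro p
    obtain ⟨a, t, rfl⟩ := smash_coe_surjective (X := A.carrier) (Y := unitInterval) p
    rw [app_whiskerRight_cyl]
    exact hmem _ t (Or.inr ⟨a, rfl⟩)
  let f : toLC B.und ⟶ toLC Z.und := factor m hm (incl 0 (toLC B.und)) hf0
  let H : toLC A.und ⊗ II ⟶ toLC Z.und := factor m hm (toHom i ▷ II) hH0
  have hfm : ∀ b : B.und.Pt, app m (app f b) =
      LC.smash b ((0 : unitInterval) : OnePoint unitInterval) := by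
    intro b
    rw [app_factor, app_incl]
  have hHm : ∀ (a : A.und.Pt) (t : unitInterval), app m (app H (LC.smash a (t : OnePoint _))) =
      LC.smash (i.toFun a) (t : OnePoint unitInterval) := by
    intro a t
    rw [app_factor, app_whiskerRight_cyl]
    rfl
  have hf : IsGMap (X := B) (Y := Z) (ofHom (Y := Z.und) f).toFun := by
    intro g b
    apply hm
    refine (hfm _).trans ?_
    rw [hmG]
    exact (smul_smash B ⟨unitInterval⟩ g b _).symm.trans (congrArg _ (hfm b).symm)
  obtain ⟨K, ⟨hK, hKG⟩, hK0, hK1⟩ := hi Z (ofHom (Y := Z.und) f)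
    (fun t a => app H (LC.smash a (t : OnePoint unitInterval))) hf
    ⟨isHtpy_of_hom (X := A.und) (Y := Z.und) H, by
      intro t g a
      apply hm
      refine (hHm _ _).trans ?_
      rw [hmG]
      refine Eq.trans ?_ (congrArg _ (hHm a t).symm)
      rw [hG]
      exact (smul_smash B ⟨unitInterval⟩ g _ _).symm⟩
    (by
      funext a
      apply hm
      refine (hHm _ _).trans ?_
      exact (hfm _).symm)
  let k : toLC B.und ⊗ II ⟶ toLC Z.und := htpyMap (X := B.und) (Y := Z.und) K hK
  have hk : ∀ (b : B.und.Pt) (t : unitInterval), app k (LC.smash b (t : OnePoint unitInterval)) =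
      K t b := fun b t => app_htpyMap (X := B.und) (Y := Z.und) K hK b t
  refine ⟨k ≫ m, ⟨?_, ?_, ?_⟩, ?_⟩
  · intro b
    rw [app_comp]
    refine (congrArg (app m) (hk b 0)).trans ?_
    rw [hK0]
    exact hfm b
  · rintro _ ⟨a, rfl⟩ t
    rw [app_comp]
    refine (congrArg (app m) (hk _ t)).trans ?_
    exact (congrArg (app m) (congrFun (hK1 t) a)).trans (hHm a t)
  · intro p
    obtain ⟨b, t, hbt⟩ := smash_coe_surjective (X := B.carrier) (Y := unitInterval) (app (k ≫ m) p)
    refine ⟨b, t, hbt.symm, ?_⟩
    have h1 : LC.smash b (t : OnePoint unitInterval) ∈ Set.range (app m) := by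
      rw [hbt]; exact ⟨_, rfl⟩
    by_cases hb : b = ∞
    · subst hb
      exact Or.inr ⟨∞, i.map_infty⟩
    · obtain ⟨b', rfl⟩ := OnePoint.ne_infty_iff_exists.mp hb
      exact (mem_range_subι (Y := toLC B.und ⊗ II) hS _).mp h1 (b', t) rfl
  · intro g b t
    rw [app_comp, app_comp]
    refine (congrArg (app m) (hk _ t)).trans ?_
    rw [hKG, hmG]
    exact congrArg _ (congrArg (app m) (hk b t).symm)

theorem injective_fι_II : Function.Injective (app (fι B V ▷ II)) := by
  intro p q h
  obtain ⟨x, t, rfl⟩ := smash_coe_surjective (X := (B.fix V).carrier) (Y := unitInterval) p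
  obtain ⟨y, s, rfl⟩ := smash_coe_surjective (X := (B.fix V).carrier) (Y := unitInterval) q
  rw [app_whiskerRight_cyl, app_whiskerRight_cyl] at h
  obtain ⟨h1, h2⟩ := smash_coe_eq_iff.mp h
  have h3 := injective_fι B V h1
  subst h3
  refine smash_coe_eq_iff.mpr ⟨rfl, h2.imp (fun h4 => ?_) id⟩
  exact injective_fι B V (h4.trans (app_infty (fι B V)).symm)

theorem mem_range_fι_II (b : B.und.Pt) (t : unitInterval)
    (h : ∀ v ∈ V, (cylG B ⟨unitInterval⟩).smul v (LC.smash b (t : OnePoint unitInterval)) =
      LC.smash b (t : OnePoint unitInterval)) :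
    ∃ x : (B.fix V).Pt, app (fι B V) x = b ∧
      LC.smash b (t : OnePoint unitInterval) =
        app (fι B V ▷ II) (LC.smash x (t : OnePoint unitInterval)) := by
  have hb : b ∈ Set.range (app (fι B V)) := by
    rw [mem_range_fι]
    intro v hv
    have h1 := h v hv
    exact (smash_coe_eq_iff.mp ((smul_smash B ⟨unitInterval⟩ v b _).symm.trans h1)).1
  obtain ⟨x, rfl⟩ := hb
  refine ⟨x, rfl, ?_⟩
  rw [app_whiskerRight_cyl]

/-- Fixed points of a `G`-cofibration are a cofibration. -/
theorem cofib_fixHom {i : Map A.und B.und} (hG : IsGMap (X := A) (Y := B) (app (toHom i)))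
    (hi : GCofib (A := A) (B := B) i) : LC.Cofib (fixHom V (toHom i) hG) := by
  obtain ⟨r, hr, hrG⟩ := exists_isRetr_of_gcofib hG hi
  have hinj := injective_of_gcofib hi
  have hrange : ∀ p, app (fι B V ▷ II ≫ r) p ∈ Set.range (app (fι B V ▷ II)) := by
    intro p
    obtain ⟨x, t, rfl⟩ := smash_coe_surjective (X := (B.fix V).carrier) (Y := unitInterval) p
    rw [app_comp, app_whiskerRight_cyl]
    obtain ⟨b, s, hbs, -⟩ := hr.range (LC.smash (app (fι B V) x) (t : OnePoint unitInterval))
    obtain ⟨y, -, hy⟩ := mem_range_fι_II V b s (by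
      intro v hv
      refine (congrArg ((cylG B ⟨unitInterval⟩).smul v) hbs.symm).trans ?_
      refine (hrG v _ t).symm.trans ?_
      rw [smul_fι B V x hv, hbs])
    exact ⟨_, hy.symm.trans hbs.symm⟩
  let ρ : toLC (B.fix V) ⊗ II ⟶ toLC (B.fix V) ⊗ II :=
    factor (fι B V ▷ II) (injective_fι_II V) (fι B V ▷ II ≫ r) hrange
  have hρ : ∀ (x : (B.fix V).Pt) (t : unitInterval),
      app (fι B V ▷ II) (app ρ (LC.smash x (t : OnePoint unitInterval))) =
        app r (LC.smash (app (fι B V) x) (t : OnePoint unitInterval)) := by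
    intro x t
    rw [app_factor, app_comp, app_whiskerRight_cyl]
  have hri : ∀ b : (B.fix V).Pt, app (fι B V) b ∈ Set.range i.toFun →
      b ∈ Set.range (app (fixHom V (toHom i) hG)) := by
    rintro b ⟨a, ha⟩
    have ha' : a ∈ Set.range (app (fι A V)) := by
      rw [mem_range_fι]
      intro v hv
      apply hinj
      refine (hG v a).trans ?_
      refine (congrArg (B.smul v) ha).trans ?_
      rw [smul_fι B V b hv, ha]
    obtain ⟨x, rfl⟩ := ha'
    refine ⟨x, injective_fι B V ?_⟩
    rw [app_fixHom]
    exact ha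
  have hri' : ∀ b ∈ Set.range (app (fixHom V (toHom i) hG)),
      app (fι B V) b ∈ Set.range i.toFun := by
    rintro _ ⟨a, rfl⟩
    exact ⟨app (fι A V) a, (app_fixHom V (toHom i) hG a).symm⟩
  refine cofib_of_isRetr (r := ρ) ?_ ⟨?_, ?_, ?_⟩
  · intro a a' h
    apply injective_fι A V
    apply hinj
    have h1 := congrArg (app (fι B V)) h
    rw [app_fixHom, app_fixHom] at h1
    exact h1
  · intro b
    apply injective_fι_II V
    rw [hρ, hr.zero, app_whiskerRight_cyl]
  · intro b hb t
    apply injective_fι_II V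
    rw [hρ, hr.mem _ (hri' b hb), app_whiskerRight_cyl]
  · intro p
    obtain ⟨x, t, rfl⟩ := smash_coe_surjective (X := (B.fix V).carrier) (Y := unitInterval) p
    obtain ⟨b, s, hbs, hb⟩ := hr.range (LC.smash (app (fι B V) x) (t : OnePoint unitInterval))
    obtain ⟨y, hy1, hy⟩ := mem_range_fι_II V b s (by
      intro v hv
      refine (congrArg ((cylG B ⟨unitInterval⟩).smul v) hbs.symm).trans ?_
      refine (hrG v _ t).symm.trans ?_
      rw [smul_fι B V x hv, hbs])
    refine ⟨y, s, ?_, hb.imp id fun hb => hri y (hy1.symm ▸ hb)⟩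
    apply injective_fι_II V
    rw [hρ, hbs, hy]

/-- Fixed points of a quotient map of a cofibration. -/
theorem isQuot_fix {C : GSpace G} {i : Map A.und B.und} {q : Map B.und C.und}
    (hG : IsGMap (X := A) (Y := B) (app (toHom i)))
    (hqG : IsGMap (X := B) (Y := C) (app (toHom q)))
    (hi : Function.Injective i.toFun) (hq : IsQuot i q) :
    IsQuot (A := A.fix V) (B := B.fix V) (C := C.fix V) (ofHom (fixHom V (toHom i) hG))
      (ofHom (fixHom V (toHom q) hqG)) := by
  have hri : ∀ b : (B.fix V).Pt, app (fι B V) b ∈ Set.range i.toFun →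
      b ∈ Set.range (app (fixHom V (toHom i) hG)) := by
    rintro b ⟨a, ha⟩
    have ha' : a ∈ Set.range (app (fι A V)) := by
      rw [mem_range_fι]
      intro v hv
      apply hi
      refine (hG v a).trans ?_
      refine (congrArg (B.smul v) ha).trans ?_
      rw [smul_fι B V b hv, ha]
    obtain ⟨x, rfl⟩ := ha'
    refine ⟨x, injective_fι B V ?_⟩
    rw [app_fixHom]
    exact ha
  constructor
  · intro c
    obtain ⟨b, hb⟩ := hq.1 (app (fι C V) c)
    by_cases hbi : b ∈ Set.range i.toFun
    · refine ⟨∞, ?_⟩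
      apply injective_fι C V
      refine (congrArg (app (fι C V)) (app_infty (fixHom V (toHom q) hqG))).trans ?_
      rw [app_infty, ← hb, ← q.map_infty]
      exact (hq.2 _ _).2 (Or.inr ⟨⟨∞, i.map_infty⟩, hbi⟩)
    · have hb' : b ∈ Set.range (app (fι B V)) := by
        rw [mem_range_fι]
        intro v hv
        have h1 : q.toFun (B.smul v b) = q.toFun b := by
          refine (hqG v b).trans ?_
          refine (congrArg (C.smul v) hb).trans ?_
          rw [smul_fι C V c hv, hb]
        rcases (hq.2 _ _).1 h1 with h2 | h2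
        · exact h2
        · exact absurd h2.2 hbi
      obtain ⟨x, rfl⟩ := hb'
      refine ⟨x, injective_fι C V ?_⟩
      refine (app_fixHom V (toHom q) hqG x).trans hb
  · intro b b'
    have h0 : (app (fixHom V (toHom q) hqG) b = app (fixHom V (toHom q) hqG) b') ↔
        q.toFun (app (fι B V) b) = q.toFun (app (fι B V) b') := by
      rw [← (injective_fι C V).eq_iff, app_fixHom, app_fixHom]
      rfl
    refine h0.trans ((hq.2 _ _).trans (or_congr (injective_fι B V).eq_iff (and_congr ?_ ?_)))
    · refine ⟨hri b, ?_⟩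
      rintro ⟨a, rfl⟩
      exact ⟨app (fι A V) a, (app_fixHom V (toHom i) hG a).symm⟩
    · refine ⟨hri b', ?_⟩
      rintro ⟨a, rfl⟩
      exact ⟨app (fι A V) a, (app_fixHom V (toHom i) hG a).symm⟩

/-- An equivariant retraction onto the mapping cylinder gives the equivariant homotopy extension
property. -/
theorem gcofib_of_isRetr {i : Map A.und B.und} (hG : IsGMap (X := A) (Y := B) i.toFun)
    (hinj : Function.Injective i.toFun) {r : toLC B.und ⊗ II ⟶ toLC B.und ⊗ II}
    (hr : IsRetr (Set.range i.toFun) r)
    (hrG : ∀ (g : G) (b : B.und.Pt) (t : unitInterval),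
      app r (LC.smash (B.smul g b) (t : OnePoint unitInterval)) =
        (cylG B ⟨unitInterval⟩).smul g (app r (LC.smash b (t : OnePoint unitInterval)))) :
    GCofib (A := A) (B := B) i := by
  intro Z f H hf hH h0
  obtain ⟨K, hK0, hK1⟩ := (cofib_of_isRetr (i := toHom i) hinj hr) (toLC Z.und) (toHom f)
    (htpyMap H hH.1) (by
      apply app_ext
      intro x
      rw [app_comp, app_incl]
      refine (app_htpyMap H hH.1 x 0).trans ?_
      rw [h0]
      rfl)
  have hK0' : ∀ b : B.und.Pt, app K (LC.smash b ((0 : unitInterval) : OnePoint unitInterval)) =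
      f.toFun b := by
    intro b
    have := congrArg (fun k => app k b) hK0
    simp only [app_comp, app_incl] at this
    exact this
  have hK1' : ∀ (a : A.und.Pt) (t : unitInterval),
      app K (LC.smash (i.toFun a) (t : OnePoint unitInterval)) = H t a := by
    intro a t
    have h1 := congrArg (fun k => app k (LC.smash a (t : OnePoint unitInterval))) hK1
    change app K (app (toHom i ▷ II) (LC.smash a (t : OnePoint unitInterval))) =
      app (htpyMap H hH.1) (LC.smash a (t : OnePoint unitInterval)) at h1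
    rw [app_htpyMap, app_whiskerRight_smash] at h1
    exact h1
  have hKr : ∀ (b b' : B.und.Pt) (t t' : unitInterval),
      app r (LC.smash b (t : OnePoint unitInterval)) = LC.smash b' (t' : OnePoint unitInterval) →
      app (r ≫ K) (LC.smash b (t : OnePoint unitInterval)) =
        app K (LC.smash b' (t' : OnePoint unitInterval)) := by
    intro b b' t t' h
    rw [app_comp, h]
  refine ⟨fun t b => app (r ≫ K) (LC.smash b (t : OnePoint unitInterval)),
    ⟨isHtpy_of_hom (X := B.und) (Y := Z.und) (r ≫ K), ?_⟩, ?_, ?_⟩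
  · intro t g b
    obtain ⟨b', t', h1, h2⟩ := hr.range (LC.smash b (t : OnePoint unitInterval))
    have h3 : app r (LC.smash (B.smul g b) (t : OnePoint unitInterval)) =
        LC.smash (B.smul g b') (t' : OnePoint unitInterval) :=
      (hrG g b t).trans ((congrArg _ h1).trans (smul_smash B ⟨unitInterval⟩ g b' _))
    refine (hKr _ _ _ _ h3).trans (Eq.trans ?_ (congrArg (Z.smul g) (hKr _ _ _ _ h1)).symm)
    rcases h2 with rfl | ⟨a, rfl⟩
    · rw [hK0', hK0']
      exact hf g b'
    · have h4 : B.smul g (i.toFun a) = i.toFun (A.smul g a) := (hG g a).symm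
      rw [h4, hK1', hK1']
      exact hH.2 t' g a
  · funext b
    exact (hKr _ _ _ _ (hr.zero b)).trans (hK0' b)
  · intro t
    funext a
    refine (hKr _ _ _ _ (hr.mem _ ⟨a, rfl⟩ t)).trans (hK1' a t)

theorem gcofib_iff {i : Map A.und B.und} (hG : IsGMap (X := A) (Y := B) i.toFun) :
    GCofib (A := A) (B := B) i ↔ Function.Injective i.toFun ∧
      ∃ r : toLC B.und ⊗ II ⟶ toLC B.und ⊗ II, IsRetr (Set.range i.toFun) r ∧
        ∀ (g : G) (b : B.und.Pt) (t : unitInterval),
          app r (LC.smash (B.smul g b) (t : OnePoint unitInterval)) =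
            (cylG B ⟨unitInterval⟩).smul g (app r (LC.smash b (t : OnePoint unitInterval))) :=
  ⟨fun h => ⟨injective_of_gcofib h, exists_isRetr_of_gcofib hG h⟩,
    fun ⟨h, _, hr, hrG⟩ => gcofib_of_isRetr hG h hr hrG⟩

end cofib

/-! ### cells -/

section cells

/-- the fixed points of a cell -/
noncomputable def cellFixHomeo (W V : Subgroup G) (n k : ℕ)
    (e : {x : G ⧸ W // ∀ v ∈ V, v • x = x} ≃ Fin k) :
    ((cell G W n).fix V).carrier ≃ₜ Fin k × (Fin n → ℝ) :=
  letI : TopologicalSpace (G ⧸ W) := ⊥
  haveI : DiscreteTopology (G ⧸ W) := ⟨rfl⟩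
  { toFun := fun x => (e ⟨x.1.1, fun v hv => (Prod.ext_iff.1 (x.2 ⟨v, hv⟩)).1⟩, x.1.2)
    invFun := fun y => ⟨((e.symm y.1).1, y.2), fun v =>
      Prod.ext ((e.symm y.1).2 v.1 v.2) rfl⟩
    left_inv := by
      rintro ⟨⟨x, y⟩, h⟩
      apply Subtype.ext
      apply Prod.ext
      · exact congrArg Subtype.val (e.symm_apply_apply _)
      · rfl
    right_inv := by
      rintro ⟨j, y⟩
      apply Prod.ext
      · exact e.apply_symm_apply j
      · rfl
    continuous_toFun := by
      have hv : Continuous (fun x : ((cell G W n).fix V).carrier =>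
          (x.1 : (G ⧸ W) × (Fin n → ℝ))) := continuous_subtype_val
      refine Continuous.prodMk ?_ (continuous_snd.comp hv)
      have h1 : Continuous (fun x : {x : G ⧸ W // ∀ v ∈ V, v • x = x} => e x) :=
        continuous_of_discreteTopology
      exact h1.comp ((continuous_fst.comp hv).subtype_mk _)
    continuous_invFun := by
      refine Continuous.subtype_mk (Continuous.prodMk ?_ continuous_snd) _
      have h1 : Continuous (fun j : Fin k => (e.symm j).1) := continuous_of_discreteTopology
      exact h1.comp continuous_fst }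

theorem fc_fix_cell [Finite G] (W V : Subgroup G) (n : ℕ) : St.FC ((cell G W n).fix V) := by
  rw [fc_iff]
  obtain ⟨k, ⟨e⟩⟩ := Finite.exists_equiv_fin {x : G ⧸ W // ∀ v ∈ V, v • x = x}
  exact (fc_finProd (LC.FC.sph n) k).of_iso
    (ofHomeo (Y := toLC ((cell G W n).fix V)) (cellFixHomeo W V n k e).symm)

end cells

/-- **The fixed points of a finite `G`-cell space are a finite cell space.** -/
theorem fc_fix [Finite G] {X : GSpace G} (hX : GFC G X) (V : Subgroup G) : St.FC (X.fix V) := by
  induction hX with
  | empty =>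
    rw [fc_iff]
    have : IsEmpty (toLC ((GSpace.triv G Em).fix V)) := ⟨fun x => x.1.elim⟩
    exact LC.FC.of_isEmpty _
  | cell W n => exact fc_fix_cell W V n
  | hequiv _ h ih => exact ih.hequiv (hequiv_fix V h)
  | @ext A B C i q hi hq hcof hquot _ _ ihA ihC =>
    have hi' : IsGMap (X := A) (Y := B) (app (toHom i)) := hi
    have hq' : IsGMap (X := B) (Y := C) (app (toHom q)) := hq
    exact St.FC.ext (i := ofHom (fixHom V (toHom i) hi')) (q := ofHom (fixHom V (toHom q) hq'))
      ((St.cofib_iff _).mpr (cofib_fixHom V hi' hcof))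
      (isQuot_fix V hi' hq' (injective_of_gcofib hcof) hquot) ihA ihC

theorem fixFC : Vale.Agent.P241.St.FixFC := fun _ _ _ _ hX V => fc_fix hX V

/-- The underlying space of a finite `G`-cell space is a finite cell space. -/
theorem fc_und [Finite G] {X : GSpace G} (hX : GFC G X) : St.FC X.und := by
  have h := (fc_iff _).mp (fc_fix hX ⊥)
  rw [fc_iff]
  have hi : IsIso (fι X ⊥) := by
    refine Vale.Agent.P251.G.Cell.isIso_of_bijective _ ⟨injective_fι X ⊥, fun x => ?_⟩
    refine (mem_range_fι X ⊥ x).2 fun v hv => ?_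
    rw [Subgroup.mem_bot.1 hv, smul_one']
  exact h.of_iso (asIso (fι X ⊥))

end Vale.Agent.P241.H486
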