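import Vale.Agent.P241.H486.Fix
import Vale.Agent.P251.G.CofibNDR

/-!
# P241: constructions of `G`-cofibrations

* `gcofib_of_ndr` : an equivariant NDR is a `G`-cofibration;
* `GCofib.prodRight` : `i × C` for a `G`-cofibration `i`;
* `gcofib_comp`, `gcofib_of_bijective`.
-/

open CategoryTheory MonoidalCategory OnePoint Topology

namespace Vale.Agent.P241.H486

open Vale.Agent.P251 Vale.Agent.P251.St Vale.Agent.P251.G Vale.Agent.P251.G.LC
open Vale.Agent.P241.St

variable {G : Type} [Group G]

theorem smul_prod (X Y : GSpace G) (g : G) (x : X.und.Pt) (y : Y.und.Pt) :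
    (X.prod Y).smul g (LC.smash x y) = LC.smash (X.smul g x) (Y.smul g y) := by
  induction x using OnePoint.rec with
  | infty => rfl
  | coe x =>
    induction y using OnePoint.rec with
    | infty => rfl
    | coe y => rfl

/-! ### composition -/

section comp

variable {A B C : GSpace G}

/-- composition of pointed maps -/
abbrev mcomp {X Y Z : Space} (f : Map X Y) (g : Map Y Z) : Map X Z := ofHom (toHom f ≫ toHom g)

theorem IsGMap.comp' {f : A.und.Pt → B.und.Pt} {g : B.und.Pt → C.und.Pt}
    (hf : IsGMap (X := A) (Y := B) f) (hg : IsGMap (X := B) (Y := C) g) :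
    IsGMap (X := A) (Y := C) (g ∘ f) := fun x a => by
  rw [Function.comp_apply, hf, hg]
  rfl

theorem gcofib_comp {i : Map A.und B.und} {j : Map B.und C.und}
    (hj' : IsGMap (X := B) (Y := C) j.toFun)
    (hi : GCofib (A := A) (B := B) i) (hj : GCofib (A := B) (B := C) j) :
    GCofib (A := A) (B := C) (mcomp i j) := by
  intro Z f H hf hH h0
  have hjf : IsGMap (X := B) (Y := Z) (mcomp j f).toFun :=
    IsGMap.comp' (A := B) (B := C) (C := Z) (f := j.toFun) (g := f.toFun) hj' hf
  obtain ⟨K, hK, hK0, hK1⟩ := hi Z (mcomp j f) H hjf hH h0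
  obtain ⟨L, hL, hL0, hL1⟩ := hj Z f K hf hK hK0
  refine ⟨L, hL, hL0, fun t => ?_⟩
  have : L t ∘ (mcomp i j).toFun = (L t ∘ j.toFun) ∘ i.toFun := rfl
  rw [this, hL1, hK1]

/-- Being a `G`-cofibration only depends on the image. -/
theorem gcofib_of_range {i : Map A.und B.und} (hG : IsGMap (X := A) (Y := B) i.toFun)
    {j : Map C.und B.und} (hjG : IsGMap (X := C) (Y := B) j.toFun)
    (hinj : Function.Injective j.toFun) (h : Set.range i.toFun = Set.range j.toFun)
    (hi : GCofib (A := A) (B := B) i) : GCofib (A := C) (B := B) j := by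
  obtain ⟨r, hr, hrG⟩ := exists_isRetr_of_gcofib hG hi
  rw [h] at hr
  exact gcofib_of_isRetr hjG hinj hr hrG

end comp

/-! ### equivariant NDR -/

section ndr

variable {A B : GSpace G}

/-- **An equivariant NDR is a `G`-cofibration.** -/
theorem gcofib_of_ndr {i : Map A.und B.und} (hG : IsGMap (X := A) (Y := B) i.toFun)
    (hinj : Function.Injective i.toFun) {S : Set B.carrier}
    (hS : Set.range i.toFun = ptd (D := toLC B.und) S) (N : NDRData (toLC B.und) S)
    (hu : ∀ (g : G) (b : B.und.Pt), N.u (B.smul g b) = N.u b)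
    (hh : ∀ (g : G) (b : B.und.Pt) (t : unitInterval),
      app N.h (LC.smash (B.smul g b) (t : OnePoint unitInterval)) =
        B.smul g (app N.h (LC.smash b (t : OnePoint unitInterval)))) :
    GCofib (A := A) (B := B) i := by
  have hc : Continuous (fun p : B.und.Pt × unitInterval =>
      LC.smash (app N.h (LC.smash p.1 (p.2 : OnePoint unitInterval)))
        ((tsub p.2 (N.u p.1) : unitInterval) : OnePoint unitInterval)) := by
    refine (continuous_smash (X := B.carrier) (Y := unitInterval)).comp (Continuous.prodMk ?_ ?_)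
    · exact (continuous_app N.h).comp (continuous_smash.comp
        (continuous_fst.prodMk (OnePoint.continuous_coe.comp continuous_snd)))
    · exact OnePoint.continuous_coe.comp
        (continuous_tsub continuous_snd (N.u.continuous.comp continuous_fst))
  have hinf : ∀ t : unitInterval, LC.smash (app N.h (LC.smash (∞ : B.und.Pt)
      (t : OnePoint unitInterval)))
        ((tsub t (N.u ∞) : unitInterval) : OnePoint unitInterval) = ∞ := by
    intro t
    have h1 : app N.h (LC.smash ∞ (t : OnePoint unitInterval)) = ∞ := app_infty _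
    rw [h1]
    rfl
  let r : toLC B.und ⊗ II ⟶ toLC B.und ⊗ II :=
    homII (X := toLC B.und) (Z := toLC B.und ⊗ II) _ hc hinf
  have hr : ∀ (b : B.und.Pt) (t : unitInterval), app r (LC.smash b (t : OnePoint unitInterval)) =
      LC.smash (app N.h (LC.smash b (t : OnePoint unitInterval)))
        ((tsub t (N.u b) : unitInterval) : OnePoint unitInterval) := fun b t =>
    app_homII (X := toLC B.und) (Z := toLC B.und ⊗ II) _ hc hinf b t
  refine gcofib_of_isRetr hG hinj (r := r) ⟨?_, ?_, ?_⟩ ?_
  · intro d
    rw [hr, N.h_zero', zero_tsub]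
  · intro d hd t
    rw [hS] at hd
    rw [hr, N.h_mem' hd]
    induction d using OnePoint.rec with
    | infty => rfl
    | coe d =>
      have h0 := (N.u_eq_zero d).mpr (coe_mem_ptd.mp hd)
      change LC.smash _ ((tsub t (N.u (d : OnePoint B.carrier)) : unitInterval) :
        OnePoint unitInterval) = _
      rw [h0, tsub_zero]
  · intro p
    obtain ⟨d, t, rfl⟩ := smash_coe_surjective (X := B.carrier) (Y := unitInterval) p
    refine ⟨_, _, hr d t, ?_⟩
    rw [hS]
    rcases le_or_gt t (N.u d) with h1 | h1
    · exact Or.inl (tsub_of_le h1)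
    · exact Or.inr (N.h_lt' d t h1)
  · intro g b t
    rw [hr]
    refine Eq.trans ?_ (congrArg _ (hr b t).symm)
    rw [hu, hh]
    exact (smul_smash B ⟨unitInterval⟩ g _ _).symm

end ndr

/-! ### products -/

section prod

variable {A B : GSpace G} (C : GSpace G)

/-- the interchange `(B × C) × I ≅ (B × I) × C` -/
def shuf (B C : LC) : (B ⊗ C) ⊗ II ≅ (B ⊗ II) ⊗ C :=
  ofHomeo (X := LC.of ((B × C) × unitInterval)) (Y := LC.of ((B × unitInterval) × C))
    { toFun := fun p => ((p.1.1, p.2), p.1.2)
      invFun := fun p => ((p.1.1, p.2), p.1.2)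
      left_inv := fun _ => rfl
      right_inv := fun _ => rfl
      continuous_toFun := by fun_prop
      continuous_invFun := by fun_prop }

theorem app_shuf (B C : LC) (b : OnePoint B) (c : OnePoint C) (t : OnePoint unitInterval) :
    app (shuf B C).hom (LC.smash (LC.smash b c) t) = LC.smash (LC.smash b t) c := by
  induction b using OnePoint.rec with
  | infty => exact app_infty _
  | coe b =>
    induction c using OnePoint.rec with
    | infty =>
      rw [smash_infty_right, smash_infty_right, smash_infty_left]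
      exact app_infty _
    | coe c =>
      induction t using OnePoint.rec with
      | infty =>
        rw [smash_infty_right, smash_infty_right, smash_infty_left]
        exact app_infty _
      | coe t => rfl

theorem app_shuf_inv (B C : LC) (b : OnePoint B) (c : OnePoint C) (t : OnePoint unitInterval) :
    app (shuf B C).inv (LC.smash (LC.smash b t) c) = LC.smash (LC.smash b c) t := by
  rw [← app_shuf, ← app_comp, Iso.hom_inv_id, app_id]

/-- The product of a `G`-cofibration with a `G`-space. -/
theorem gcofib_prodRight {i : Map A.und B.und} (hG : IsGMap (X := A) (Y := B) i.toFun)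
    (hi : GCofib (A := A) (B := B) i) :
    GCofib (A := A.prod C) (B := B.prod C) (ofHom (toHom i ▷ toLC C.und)) := by
  obtain ⟨r, hr, hrG⟩ := exists_isRetr_of_gcofib hG hi
  have hinj := injective_of_gcofib hi
  let r' : (toLC B.und ⊗ toLC C.und) ⊗ II ⟶ (toLC B.und ⊗ toLC C.und) ⊗ II :=
    (shuf (toLC B.und) (toLC C.und)).hom ≫ r ▷ toLC C.und ≫ (shuf (toLC B.und) (toLC C.und)).inv
  have hr' : ∀ (b : B.und.Pt) (c : C.und.Pt) (t t' : unitInterval) (b' : B.und.Pt),
      app r (LC.smash b (t : OnePoint unitInterval)) = LC.smash b' (t' : OnePoint unitInterval) →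
      app r' (LC.smash (LC.smash b c) (t : OnePoint unitInterval)) =
        LC.smash (LC.smash b' c) (t' : OnePoint unitInterval) := by
    intro b c t t' b' h
    change app (shuf (toLC B.und) (toLC C.und)).inv (app (r ▷ toLC C.und)
      (app (shuf (toLC B.und) (toLC C.und)).hom (LC.smash (LC.smash b c) t))) = _
    rw [app_shuf, app_whiskerRight_smash, h, app_shuf_inv]
  have hir : ∀ (a : A.und.Pt) (c : C.und.Pt), (ofHom (X := (A.prod C).und)
      (Y := (B.prod C).und) (toHom i ▷ toLC C.und)).toFun (LC.smash a c) =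
      LC.smash (i.toFun a) c := fun a c => app_whiskerRight_smash (toHom i) (toLC C.und) a c
  have hrange : ∀ (b : B.und.Pt) (c : C.und.Pt), b ∈ Set.range i.toFun →
      LC.smash b c ∈ Set.range (ofHom (X := (A.prod C).und)
        (Y := (B.prod C).und) (toHom i ▷ toLC C.und)).toFun := by
    rintro _ c ⟨a, rfl⟩
    exact ⟨LC.smash a c, hir a c⟩
  refine gcofib_of_isRetr (A := A.prod C) (B := B.prod C) ?_ ?_ (r := r') ⟨?_, ?_, ?_⟩ ?_
  · intro g p
    obtain ⟨a, c, rfl⟩ := smash_surjective (X := A.carrier) (Y := C.carrier) p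
    rw [smul_prod, hir, hG]
    refine Eq.trans ?_ (congrArg _ (hir a c).symm)
    exact (smul_prod B C g _ _).symm
  · intro p q h
    obtain ⟨a, c, rfl⟩ := smash_surjective (X := A.carrier) (Y := C.carrier) p
    obtain ⟨a', c', rfl⟩ := smash_surjective (X := A.carrier) (Y := C.carrier) q
    rw [hir, hir] at h
    have hinf : i.toFun ∞ = ∞ := i.map_infty
    have hinf' : ∀ a, i.toFun a = ∞ → a = ∞ := fun a ha => hinj (ha.trans hinf.symm)
    induction c using OnePoint.rec with
    | infty =>
      rw [smash_infty_right] at h ⊢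
      rcases smash_eq_infty.1 h.symm with h1 | h1
      · rw [hinf' _ h1, smash_infty_left]
      · rw [h1, smash_infty_right]
    | coe c =>
      induction c' using OnePoint.rec with
      | infty =>
        rw [smash_infty_right] at h ⊢
        rcases smash_eq_infty.1 h with h1 | h1
        · rw [hinf' _ h1, smash_infty_left]
        · exact absurd h1 (OnePoint.coe_ne_infty _)
      | coe c' =>
        obtain ⟨h1, h2⟩ := smash_coe_eq_iff.mp h
        exact smash_coe_eq_iff.mpr ⟨hinj h1, h2.imp (hinf' _) id⟩
  · intro p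
    obtain ⟨b, c, rfl⟩ := smash_surjective (X := B.carrier) (Y := C.carrier) p
    exact hr' b c 0 0 b (hr.zero b)
  · rintro _ ⟨p, rfl⟩ t
    obtain ⟨a, c, rfl⟩ := smash_surjective (X := A.carrier) (Y := C.carrier) p
    rw [hir]
    exact hr' _ c t t _ (hr.mem _ ⟨a, rfl⟩ t)
  · intro p
    obtain ⟨q, t, rfl⟩ := smash_coe_surjective (X := (B.prod C).carrier) (Y := unitInterval) p
    obtain ⟨b, c, rfl⟩ := smash_surjective (X := B.carrier) (Y := C.carrier) q
    obtain ⟨b', t', h1, h2⟩ := hr.range (LC.smash b (t : OnePoint unitInterval))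
    exact ⟨_, t', hr' b c t t' b' h1, h2.imp id (hrange b' c)⟩
  · intro g p t
    obtain ⟨b, c, rfl⟩ := smash_surjective (X := B.carrier) (Y := C.carrier) p
    obtain ⟨b', t', h1, -⟩ := hr.range (LC.smash b (t : OnePoint unitInterval))
    have h3 : app r (LC.smash (B.smul g b) (t : OnePoint unitInterval)) =
        LC.smash (B.smul g b') (t' : OnePoint unitInterval) :=
      (hrG g b t).trans ((congrArg _ h1).trans (smul_smash B ⟨unitInterval⟩ g b' _))
    rw [smul_prod]
    refine (hr' _ _ t t' _ h3).trans ?_
    refine Eq.trans ?_ (congrArg _ (hr' b c t t' b' h1)).symm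
    refine Eq.trans ?_ (smul_smash (B.prod C) ⟨unitInterval⟩ g _ _).symm
    rw [smul_prod]
    rfl

end prod

end Vale.Agent.P241.H486
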